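import Vale.Agent.P269CK.Hol
import Vale.Agent.P269C.Spec

/-! Fibre kit: the groupoid of isomorphisms of fibres (row K1). -/

set_option linter.unusedSectionVars false
set_option linter.unusedVariables false

noncomputable section

namespace Vale.Agent.P269CK

open Set Filter Asymptotics Topology Vale.Agent.P273.H183 Vale.Agent.P273.H948
open Vale.Agent.P269C
open scoped Classical

variable {L : Type} {m m' m'' : ℕ} {C : Fam L m} {C' : Fam L m'} {C'' : Fam L m''}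
  {b : Fin m → ℂ} {b' : Fin m' → ℂ} {b'' : Fin m'' → ℂ} {Φ : C.X → C'.X} {Ψ : C'.X → C''.X}

theorem nf_eq {p : C.X} (hp : p ∈ C.fib b) : nf C p = 𝓝[C.fib b] p := by
  unfold nf
  rw [show C.π p = b from hp]

theorem ev_mem {p : C.X} (hp : p ∈ C.fib b) : ∀ᶠ q in nf C p, q ∈ C.fib b := by
  rw [nf_eq hp]; exact self_mem_nhdsWithin

theorem fh_congr_fib {p : C.X} (hp : p ∈ C.fib b) {f f' : C.X → ℂ}
    (e : ∀ q ∈ C.fib b, f q = f' q) : FH C f p ↔ FH C f' p :=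
  ⟨fun h => FH.congr h ((ev_mem hp).mono fun q hq => (e q hq).symm),
    fun h => FH.congr h ((ev_mem hp).mono e)⟩

theorem is_refl (C : Fam L m) (b : Fin m → ℂ) : Is C b C b id :=
  ⟨continuous_subtype_val, Subtype.val_injective, Subtype.range_coe, fun _ _ h => h,
    fun p _ _ e => fh_congr_fib p.2 fun q hq => e ⟨q, hq⟩⟩

theorem Is.bij (h : Is C b C' b' Φ) : BijOn Φ (C.fib b) (C'.fib b') := by
  obtain ⟨-, h2, h3, -⟩ := h
  refine ⟨fun p hp => h3 ▸ mem_range_self (⟨p, hp⟩ : C.fib b), fun p hp q hq e =>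
    congrArg Subtype.val (h2 (a₁ := ⟨p, hp⟩) (a₂ := ⟨q, hq⟩) e), fun q hq => ?_⟩
  rw [← h3] at hq
  obtain ⟨p, rfl⟩ := hq
  exact ⟨p, p.2, rfl⟩

theorem Is.cont (h : Is C b C' b' Φ) : ContinuousOn Φ (C.fib b) :=
  continuousOn_iff_continuous_domRestrict.2 h.1

theorem Is.mark (h : Is C b C' b' Φ) (i : L) (hi : C.π (C.s i b) = b) :
    Φ (C.s i b) = C'.s i b' := h.2.2.2.1 i ⟨_, hi⟩ rfl

theorem Is.fh (h : Is C b C' b' Φ) {p : C.X} (hp : p ∈ C.fib b) (f : C'.X → ℂ) :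
    FH C' f (Φ p) ↔ FH C (fun q => f (Φ q)) p :=
  (h.2.2.2.2 ⟨p, hp⟩ (fun q => f (Φ q)) f fun _ => rfl).symm

theorem is_of (h1 : BijOn Φ (C.fib b) (C'.fib b')) (h2 : ContinuousOn Φ (C.fib b))
    (h3 : ∀ i, C.π (C.s i b) = b → Φ (C.s i b) = C'.s i b')
    (h4 : ∀ p ∈ C.fib b, ∀ f, FH C' f (Φ p) ↔ FH C (fun q => f (Φ q)) p) : Is C b C' b' Φ := by
  refine ⟨continuousOn_iff_continuous_domRestrict.1 h2,
    fun p q e => Subtype.ext (h1.injOn p.2 q.2 e), ?_, fun i p hp => ?_, fun p f f' e => ?_⟩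
  · rw [← h1.image_eq, image_eq_range]
  · have := h3 i (hp ▸ p.2)
    simp only [hp, this]
  · rw [h4 p p.2]
    exact fh_congr_fib p.2 fun q hq => e ⟨q, hq⟩

theorem Is.congr (h : Is C b C' b' Φ) {Φ' : C.X → C'.X} (e : ∀ p ∈ C.fib b, Φ' p = Φ p) :
    Is C b C' b' Φ' := by
  have : (fun p : C.fib b => Φ' p) = fun p : C.fib b => Φ p := funext fun p => e p p.2
  unfold Is
  rw [this]
  exact h

theorem Is.comp (h : Is C b C' b' Φ) (h' : Is C' b' C'' b'' Ψ) :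
    Is C b C'' b'' fun p => Ψ (Φ p) := by
  refine is_of ((Is.bij h').comp (Is.bij h)) ((Is.cont h').comp (Is.cont h) (Is.bij h).mapsTo)
    (fun i hi => ?_) fun p hp f => ?_
  · have h1 := Is.mark h i hi
    have h2 : C'.π (C'.s i b') = b' := h1 ▸ (Is.bij h).mapsTo hi
    rw [h1, Is.mark h' i h2]
  · rw [Is.fh h' ((Is.bij h).mapsTo hp), Is.fh h hp]

theorem Is.map_nf [T2Space C'.X] (h : Is C b C' b' Φ) (hK : IsCompact (C.fib b)) {p : C.X}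
    (hp : p ∈ C.fib b) : map Φ (nf C p) = nf C' (Φ p) := by
  have hb := Is.bij h
  rw [nf_eq hp, nf_eq (hb.mapsTo hp)]
  refine le_antisymm ((Is.cont h p hp).tendsto_nhdsWithin hb.mapsTo) fun s hs => ?_
  obtain ⟨O, hO, hpO, hOs⟩ := mem_nhdsWithin.1 (mem_map.1 hs)
  have hK' : IsCompact (Φ '' (C.fib b \ O)) :=
    (hK.diff hO).image_of_continuousOn ((Is.cont h).mono sdiff_subset)
  have h1 : Φ p ∉ Φ '' (C.fib b \ O) := by
    rintro ⟨q, hq, e⟩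
    exact hq.2 (hb.injOn hq.1 hp e ▸ hpO)
  filter_upwards [mem_nhdsWithin_of_mem_nhds (hK'.isClosed.isOpen_compl.mem_nhds h1),
    self_mem_nhdsWithin] with q h2 h3
  obtain ⟨x, hx, rfl⟩ := hb.surjOn h3
  by_cases h4 : x ∈ O
  · exact hOs ⟨h4, hx⟩
  · exact absurd ⟨x, ⟨hx, h4⟩, rfl⟩ h2

theorem Is.inv' [T2Space C'.X] (h : Is C b C' b' Φ) (hK : IsCompact (C.fib b))
    (hs : ∀ i, C.π (C.s i b) = b) {Θ : C'.X → C.X} (hi : ∀ p ∈ C.fib b, Θ (Φ p) = p) :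
    Is C' b' C b Θ := by
  have hb := Is.bij h
  have hr : ∀ q ∈ C'.fib b', Θ q ∈ C.fib b ∧ Φ (Θ q) = q := by
    intro q hq
    obtain ⟨p, hp, rfl⟩ := hb.surjOn hq
    rw [hi p hp]
    exact ⟨hp, rfl⟩
  refine is_of (hb.symm ⟨fun q hq => (hr q hq).2, hi⟩) (fun q hq => ?_) (fun i _ => ?_)
    fun q hq f => ?_
  · obtain ⟨p, hp, rfl⟩ := hb.surjOn hq
    rw [ContinuousWithinAt, hi p hp, ← nf_eq (hb.mapsTo hp), ← Is.map_nf h hK hp,
      tendsto_map'_iff]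
    refine Tendsto.congr' ?_ (tendsto_id.mono_right (nf_le p))
    filter_upwards [ev_mem hp] with x hx using (hi x hx).symm
  · rw [← Is.mark h i (hs i), hi _ (hs i)]
  · obtain ⟨p, hp, rfl⟩ := hb.surjOn hq
    rw [Is.fh h hp, hi p hp]
    exact fh_congr_fib hp fun x hx => by rw [hi x hx]

theorem fib_ne (hC : C.IsStable) (hb : b ∈ C.B) : (C.fib b).Nonempty :=
  (hC.2.2.2.2.2 b hb).1.nonempty

theorem mark_mem (hC : C.IsStable) (hb : b ∈ C.B) (i : L) : C.π (C.s i b) = b :=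
  ((hC.2.2.2.2.2 b hb).2.1 i).1

theorem Is.base (h : Is C b C' b' Φ) (hne : (C.fib b).Nonempty) (hm : ∀ p, C'.π p ∈ C'.B) :
    b' ∈ C'.B := by
  obtain ⟨p, hp⟩ := hne
  have h1 : C'.π (Φ p) = b' := (Is.bij h).mapsTo hp
  exact h1 ▸ hm _

theorem Is.inv (hC : C.IsStable) (hC' : C'.IsStable) (hb : b ∈ C.B) (h : Is C b C' b' Φ) :
    b' ∈ C'.B ∧ ∃ Θ, Is C' b' C b Θ ∧ (∀ p ∈ C.fib b, Θ (Φ p) = p) ∧
      ∀ q ∈ C'.fib b', Φ (Θ q) = q := by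
  have := hC'.2.1
  have : Nonempty C.X := ⟨(fib_ne hC hb).some⟩
  have hi := (Is.bij h).invOn_invFunOn
  exact ⟨Is.base h (fib_ne hC hb) hC'.2.2.1, _,
    Is.inv' h (P273SD.isCompact_fib hC hb) (mark_mem hC hb) hi.1, hi.1, hi.2⟩

theorem iso_ext (hne : (C.fib b).Nonempty) (Θ : C.fib b → C'.X) :
    ∃ Φ : C.X → C'.X, Θ = fun p : C.fib b => Φ p :=
  ⟨Function.extend Subtype.val Θ fun _ => Θ ⟨_, hne.some_mem⟩,
    funext fun p => (Subtype.val_injective.extend_apply _ _ p).symm⟩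

theorem encard_le (hC : C.IsStable) (hC' : C'.IsStable) (hb : b ∈ C.B) :
    (Iso C b C' b').encard ≤ (Iso C' b' C b).encard := by
  have key : ∀ Θ : C.fib b → C'.X, ∃ Θ' : C'.fib b' → C.X, Θ ∈ Iso C b C' b' →
      Θ' ∈ Iso C' b' C b ∧ ∀ (p : C.fib b) (q : C'.fib b'), Θ p = q → Θ' q = p := by
    intro Θ
    by_cases h : Θ ∈ Iso C b C' b'
    · obtain ⟨Φ, rfl⟩ := iso_ext (fib_ne hC hb) Θ
      obtain ⟨-, Ψ, h1, h2, -⟩ := Is.inv hC hC' hb h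
      exact ⟨fun q => Ψ q, fun _ => ⟨h1, fun p q e => (congrArg Ψ e).symm.trans (h2 p p.2)⟩⟩
    · exact ⟨fun _ => (fib_ne hC hb).some, fun h' => absurd h' h⟩
  choose J hJ using key
  refine encard_le_encard_of_injOn (f := J) (fun Θ h => (hJ Θ h).1) fun Θ h Θ' h' e => ?_
  funext p
  have h1 : Θ p ∈ C'.fib b' := h.2.2.1 ▸ mem_range_self p
  have h2 : Θ' p ∈ C'.fib b' := h'.2.2.1 ▸ mem_range_self p
  have h3 := (hJ Θ h).2 p ⟨_, h1⟩ rfl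
  have h4 := (hJ Θ' h').2 p ⟨_, h2⟩ rfl
  rw [← e, ← h3] at h4
  exact (congrArg Subtype.val ((hJ Θ h).1.2.1 h4)).symm

theorem iso_card (hC : C.IsStable) (hC' : C'.IsStable) (hb : b ∈ C.B) (hb' : b' ∈ C'.B) :
    (Iso C b C' b').ncard = (Iso C' b' C b).ncard := by
  rw [ncard_def, ncard_def, le_antisymm (encard_le hC hC' hb) (encard_le hC' hC hb')]

theorem Is.co [T2Space C'.X] (h : Is C b C' b' Φ) (hK : IsCompact (C.fib b)) {p : C.X}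
    (hp : p ∈ C.fib b) (z : C'.X → ℂ) : Co C' z (Φ p) ↔ Co C (fun q => z (Φ q)) p := by
  unfold Co
  rw [Is.fh h hp, ← Is.map_nf h hK hp]
  refine and_congr_right fun _ => ⟨fun ⟨U, hU, h1⟩ => ⟨_, inter_mem hU (ev_mem hp),
    fun x hx y hy e => (Is.bij h).injOn hx.2 hy.2 (h1 hx.1 hy.1 e)⟩, fun ⟨U, hU, h1⟩ =>
      ⟨_, image_mem_map hU, ?_⟩⟩
  rintro _ ⟨x, hx, rfl⟩ _ ⟨y, hy, rfl⟩ e
  rw [h1 hx hy e]

theorem Is.dr [T2Space C'.X] (h : Is C b C' b' Φ) (hK : IsCompact (C.fib b)) {p : C.X}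
    (hp : p ∈ C.fib b) (f z : C'.X → ℂ) (c : ℂ) :
    Dr C' f z (Φ p) c ↔ Dr C (fun q => f (Φ q)) (fun q => z (Φ q)) p c := by
  unfold Dr
  rw [← Is.map_nf h hK hp, isLittleO_map]
  rfl

theorem sp_iff (hC : Chd C) {p : C.X} : Sp C p ↔ ∃ z, Co C z p := by
  have : Nonempty C.X := ⟨p⟩
  refine ⟨fun h => ?_, fun ⟨z, hz⟩ U x y t h hp =>
    Co.chart hz (IsChart.isModel (hol := fun x g => C.hol g x) h) hp⟩
  obtain ⟨U, u, v, t, hp, hm⟩ := hC p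
  rcases h U u v t hm.isChart hp with h0 | h0
  · exact ⟨u, co_chart hm hp h0⟩
  · exact ⟨v, co_chart hm.swap hp h0⟩

theorem sp_iff_sm (hC : Chd C) {p : C.X} : Sp C p ↔ P273SD.Sm C p := by
  rw [sp_iff hC]
  exact ⟨fun ⟨z, hz⟩ => Co.sm hC hz, fun h => let ⟨z, _, hz⟩ := exists_co h; ⟨z, hz⟩⟩

theorem Is.sp [T2Space C'.X] (hC : Chd C) (hC' : Chd C') (h : Is C b C' b' Φ)
    (hK : IsCompact (C.fib b)) {p : C.X} (hp : p ∈ C.fib b) : Sp C' (Φ p) ↔ Sp C p := by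
  have : Nonempty C.X := ⟨p⟩
  rw [sp_iff hC, sp_iff hC']
  refine ⟨fun ⟨z, hz⟩ => ⟨_, (Is.co h hK hp z).1 hz⟩, fun ⟨z, hz⟩ =>
    ⟨fun q => z (Function.invFunOn Φ (C.fib b) q), (Is.co h hK hp _).2 (Co.congr hz ?_)⟩⟩
  filter_upwards [ev_mem hp] with q hq
  rw [(Is.bij h).invOn_invFunOn.1 hq]

theorem is_fg : Is C b C' b' Φ ↔
    Is (fg C) b (fg C') b' Φ ∧ ∀ i, C.π (C.s i b) = b → Φ (C.s i b) = C'.s i b' :=
  ⟨fun h => ⟨⟨h.1, h.2.1, h.2.2.1, fun i => i.elim, h.2.2.2.2⟩, Is.mark h⟩,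
    fun h => is_of (Is.bij (C := fg C) (C' := fg C') h.1) (Is.cont (C := fg C) (C' := fg C') h.1)
      h.2 fun _ hp f => Is.fh (C := fg C) (C' := fg C') h.1 hp f⟩

theorem kur_cnt (hC : Kur C) (hC' : C'.IsStable) {b : Fin m' → ℂ} (hb : b ∈ C'.B)
    {K : Set (Fin m → ℂ)} (hK : K ⊆ C.B) (hKc : IsCompact K) :
    ∃ (k : ℕ) (φ : Fin k → (Fin m' → ℂ) → Fin m → ℂ) (Φ : Fin k → C'.X → C.X), ∀ᶠ a in 𝓝 b,
      (∀ j, Mor C' C (φ j) (Φ j) a) ∧ ∀ x ∈ K, (Iso C' a C x).Finite ∧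
        ∀ (p : C'.fib a → C.X → Prop), {Θ ∈ Iso C' a C x | ∀ q, p q (Θ q)}.ncard =
          (Finset.univ.filter fun j => φ j a = x ∧ ∀ q, p q (Φ j q)).card := by
  obtain ⟨k, φ, Φ, h⟩ := hC.2.2 m' C' hC' b hb K hK hKc
  refine ⟨k, φ, Φ, ?_⟩
  filter_upwards [h, hC'.1.mem_nhds hb] with a ⟨h1, h2, h3⟩ ha
  refine ⟨h1, fun x hx => ⟨(finite_range fun j (p : C'.fib a) => Φ j p).subset fun Θ hΘ => ?_,
    fun p => ?_⟩⟩
  · obtain ⟨j, rfl⟩ := h3 x hx Θ hΘ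
    exact mem_range_self j
  · rw [← ncard_coe_finset, ← ncard_image_of_injective _ h2]
    congr 1
    ext Θ
    constructor
    · rintro ⟨hΘ, hp⟩
      obtain ⟨j, rfl⟩ := h3 x hx Θ hΘ
      refine ⟨j, ?_, rfl⟩
      obtain ⟨q, hq⟩ := fib_ne hC' ha
      have e1 : C.π (Φ j q) = x := (Is.bij (Φ := Φ j) hΘ).mapsTo hq
      have e2 : C.π (Φ j q) = φ j a := (Is.bij (Φ := Φ j) (h1 j).2.2.1).mapsTo hq
      simp only [Finset.coe_filter, Finset.mem_univ, true_and, mem_ofPred_eq]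
      exact ⟨e2.symm.trans e1, hp⟩
    · rintro ⟨j, hj, rfl⟩
      simp only [Finset.coe_filter, Finset.mem_univ, true_and, mem_ofPred_eq] at hj
      exact ⟨hj.1 ▸ (h1 j).2.2.1, hj.2⟩

/-- **Row K1.** -/
theorem k1 : K1 where
  refl := is_refl
  mem := Is.bij
  comp := Is.comp
  inv := Is.inv
  ext hC hb Θ _ := iso_ext (fib_ne hC hb) Θ
  card := iso_card
  nf := by
    intro L L' m m' C C' b b' Φ hC hC' h p hp
    have : T2Space (fg C').X := hC'.2.1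
    have hb : b ∈ C.B := (show C.π p = b from hp) ▸ hC.2.2.1 p
    have hK : IsCompact ((fg C).fib b) := P273SD.isCompact_fib hC hb
    exact ⟨Is.map_nf h hK hp, Is.fh h hp, Is.co h hK hp, Is.dr h hK hp,
      Is.sp (C := fg C) (C' := fg C') (chd (C := C) hC) (chd (C := C') hC') h hK hp⟩
  fg := is_fg
  cnt hC hC' _ hb _ hK hKc := kur_cnt hC hC' hb hK hKc

end Vale.Agent.P269CK

end
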