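import Vale.Agent.P269CK.Dr

/-! Fibre kit: algebra of holomorphic functions, holomorphic dependence of derivatives along the
fibres, the maximum principle. -/

set_option linter.unusedSectionVars false
set_option linter.unusedVariables false

noncomputable section

namespace Vale.Agent.P269CK

open Set Filter Asymptotics Topology Vale.Agent.P273.H183 Vale.Agent.P273.H948
open Vale.Agent.P269C
open Vale.Agent.P273SD (Mod Pc Sm HolF exists_mod Pc_self holF_br ev_br ev_holF_br ev_back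
  fh_smooth fh_node an_Pc ev_Pc tendsto_Pc node_of_not_sm hol_comp_u sm_of_mod)

variable {L : Type} {m : ℕ} {C : Fam L m} {p : C.X} {f g z w : C.X → ℂ} {a b c : ℂ}

theorem hol_congr (hC : Chd C) (h : C.hol f p) (e : g =ᶠ[𝓝 p] f) : C.hol g p := by
  obtain ⟨U, u, v, t, hp, hm⟩ := hC p
  exact hm.hol_congr hp h e

theorem cont_pi (hC : Chd C) : ContinuousAt C.π p := by
  obtain ⟨U, u, v, t, hp, hm⟩ := hC p
  exact hm.cont_π hp

theorem hol_cont (hC : Chd C) (h : C.hol f p) : ContinuousAt f p := by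
  obtain ⟨U, u, v, t, hp, hm⟩ := hC p
  obtain ⟨k, hk, ek⟩ := (hm.hol p hp f).1 h
  exact (ContinuousAt.comp (g := k) hk.continuousAt (hm.cont hp)).congr ek.symm

theorem hol_ev (hC : Chd C) (h : C.hol f p) : ∀ᶠ q in 𝓝 p, C.hol f q := by
  obtain ⟨U, u, v, t, hp, hm⟩ := hC p
  obtain ⟨k, hk, ek⟩ := (hm.hol p hp f).1 h
  filter_upwards [hm.isOpen.mem_nhds hp, (hm.cont hp).eventually hk.eventually_analyticAt,
    ek.eventually_nhds] with x h1 h2 h3
  exact (hm.hol x h1 f).2 ⟨k, h2, h3⟩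

/-- Analytic functions of the base point and of two holomorphic functions. -/
theorem hol_an (hC : Chd C) (hf : C.hol f p) (hg : C.hol g p) {F : (Fin m → ℂ) × ℂ × ℂ → ℂ}
    (hF : AnalyticAt ℂ F (C.π p, f p, g p)) : C.hol (fun q => F (C.π q, f q, g q)) p := by
  obtain ⟨U, u, v, t, hp, hm⟩ := hC p
  obtain ⟨k, hk, ek⟩ := (hm.hol p hp f).1 hf
  obtain ⟨l, hl, el⟩ := (hm.hol p hp g).1 hg
  refine (hm.hol p hp _).2 ⟨fun x => F (x.1, k x, l x), ?_, ?_⟩
  · refine AnalyticAt.comp_of_eq (g := F) (f := fun x : Amb m => (x.1, k x, l x)) hF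
      (analyticAt_fst.prod (hk.prod hl)) ?_
    rw [ek.self_of_nhds, el.self_of_nhds]; rfl
  · filter_upwards [ek, el] with q h1 h2
    rw [h1, h2]; rfl

theorem hol_const (hC : Chd C) (k : ℂ) : C.hol (fun _ => k) p := by
  obtain ⟨U, u, v, t, hp, hm⟩ := hC p
  exact (hm.hol p hp _).2 ⟨fun _ => k, analyticAt_const, EventuallyEq.rfl⟩

theorem hol_base (hC : Chd C) {F : (Fin m → ℂ) → ℂ} (hF : AnalyticAt ℂ F (C.π p)) :
    C.hol (fun q => F (C.π q)) p :=
  hol_an hC (hol_const hC 0) (hol_const hC 0) (F := fun x => F x.1)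
    (AnalyticAt.comp_of_eq (g := F) hF analyticAt_fst rfl)

theorem hol_add (hC : Chd C) (hf : C.hol f p) (hg : C.hol g p) : C.hol (fun q => f q + g q) p :=
  hol_an hC hf hg (F := fun x => x.2.1 + x.2.2) ((an_u _).add (an_v _))

theorem hol_sub (hC : Chd C) (hf : C.hol f p) (hg : C.hol g p) : C.hol (fun q => f q - g q) p :=
  hol_an hC hf hg (F := fun x => x.2.1 - x.2.2) ((an_u _).sub (an_v _))

theorem hol_mul (hC : Chd C) (hf : C.hol f p) (hg : C.hol g p) : C.hol (fun q => f q * g q) p :=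
  hol_an hC hf hg (F := fun x => x.2.1 * x.2.2) ((an_u _).mul (an_v _))

theorem hol_div (hC : Chd C) (hf : C.hol f p) (hg : C.hol g p) (h0 : g p ≠ 0) :
    C.hol (fun q => f q / g q) p :=
  hol_an hC hf hg (F := fun x => x.2.1 / x.2.2) ((an_u _).div (an_v _) h0)

theorem hol_comp (hC : Chd C) (hf : C.hol f p) {F : ℂ → ℂ} (hF : AnalyticAt ℂ F (f p)) :
    C.hol (fun q => F (f q)) p :=
  hol_an hC hf hf (F := fun x => F x.2.1)
    (AnalyticAt.comp_of_eq (g := F) (f := fun x : Amb m => x.2.1) hF (an_u _) rfl)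

theorem FH.tendsto (hC : Chd C) (h : FH C f p) : Tendsto f (nf C p) (𝓝 (f p)) := by
  obtain ⟨k, h1, h2⟩ := h
  rw [self_nf h2]
  exact ((hol_cont hC h1).tendsto.mono_left (nf_le p)).congr' h2.symm

theorem FH.ev (hC : Chd C) (h : FH C f p) : ∀ᶠ q in nf C p, FH C f q := by
  obtain ⟨k, h1, h2⟩ := h
  filter_upwards [nf_le p (hol_ev hC h1), ev_nf h2] with q h3 h4
  exact ⟨k, h3, h4⟩

theorem FH.an (hC : Chd C) (hf : FH C f p) (hg : FH C g p) {F : ℂ × ℂ → ℂ}
    (hF : AnalyticAt ℂ F (f p, g p)) : FH C (fun q => F (f q, g q)) p := by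
  obtain ⟨k, h1, h2⟩ := hf
  obtain ⟨l, h3, h4⟩ := hg
  rw [self_nf h2, self_nf h4] at hF
  refine ⟨_, hol_an hC h1 h3 (F := fun x => F x.2)
    (AnalyticAt.comp_of_eq (g := F) hF analyticAt_snd rfl), ?_⟩
  filter_upwards [h2, h4] with q h5 h6
  rw [h5, h6]

theorem FH.const (hC : Chd C) (k : ℂ) : FH C (fun _ => k) p := fh_of_hol (hol_const hC k)

theorem FH.add (hC : Chd C) (hf : FH C f p) (hg : FH C g p) : FH C (fun q => f q + g q) p :=
  FH.an hC hf hg (F := fun x => x.1 + x.2) (analyticAt_fst.add analyticAt_snd)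

theorem FH.sub (hC : Chd C) (hf : FH C f p) (hg : FH C g p) : FH C (fun q => f q - g q) p :=
  FH.an hC hf hg (F := fun x => x.1 - x.2) (analyticAt_fst.sub analyticAt_snd)

theorem FH.mul (hC : Chd C) (hf : FH C f p) (hg : FH C g p) : FH C (fun q => f q * g q) p :=
  FH.an hC hf hg (F := fun x => x.1 * x.2) (analyticAt_fst.mul analyticAt_snd)

theorem FH.div (hC : Chd C) (hf : FH C f p) (hg : FH C g p) (h0 : g p ≠ 0) :
    FH C (fun q => f q / g q) p :=
  FH.an hC hf hg (F := fun x => x.1 / x.2) (analyticAt_fst.div analyticAt_snd h0)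

theorem FH.comp (hC : Chd C) (hf : FH C f p) {F : ℂ → ℂ} (hF : AnalyticAt ℂ F (f p)) :
    FH C (fun q => F (f q)) p :=
  FH.an hC hf hf (F := fun x => F x.1) (AnalyticAt.comp_of_eq (g := F) hF analyticAt_fst rfl)

theorem Co.ev (hC : Chd C) (h : Co C z p) : ∀ᶠ q in nf C p, Co C z q := by
  obtain ⟨h1, U, hU, h2⟩ := h
  filter_upwards [FH.ev hC h1, ev_nf hU] with q h3 h4
  exact ⟨h3, U, h4, h2⟩

section Chart

variable [Nonempty C.X] {U : Set C.X} {u v : C.X → ℂ} {t : (Fin m → ℂ) → ℂ}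

/-- The derivative with respect to a chart coordinate is holomorphic on the total space. -/
theorem hol_dr_chart (h : Mod C U u v t) (hp : p ∈ U) (h0 : u p ≠ 0) (hf : C.hol f p) :
    ∃ g, C.hol g p ∧ ∀ᶠ q in 𝓝 p,
      g q = deriv (fun x => f (Pc C U u v t (C.π q) x)) (u q) := by
  set F : (Fin m → ℂ) × ℂ → ℂ := fun x => f (Pc C U u v t x.1 x.2) with hF
  have hFa : AnalyticAt ℂ F (C.π p, u p) := an_Pc h hp h0 hf
  have h1 : AnalyticAt ℂ (fun x => fderiv ℂ F x (0, 1)) (C.π p, u p) :=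
    ((ContinuousLinearMap.apply ℂ ℂ ((0, 1) : (Fin m → ℂ) × ℂ)).analyticAt _).comp hFa.fderiv
  refine ⟨fun q => fderiv ℂ F (C.π q, u q) (0, 1), (h.hol p hp _).2
    ⟨fun x => fderiv ℂ F (x.1, x.2.1) (0, 1), AnalyticAt.comp_of_eq
      (g := fun x => fderiv ℂ F x (0, 1)) (f := fun x : Amb m => (x.1, x.2.1)) h1
      (analyticAt_fst.prod (an_u _)) rfl, EventuallyEq.rfl⟩, ?_⟩
  filter_upwards [((h.cont_π hp).prodMk (h.cont_u hp)).eventually hFa.eventually_analyticAt]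
    with q hq
  have h2 : HasDerivAt (fun x : ℂ => ((C.π q, x) : (Fin m → ℂ) × ℂ)) (0, 1) (u q) :=
    (hasDerivAt_const _ _).prodMk (hasDerivAt_id _)
  exact (hq.differentiableAt.hasFDerivAt.comp_hasDerivAt (u q) h2).deriv.symm

end Chart

/-- **The derivative along the fibres is holomorphic on the total space.** -/
theorem hol_dd (hC : Chd C) (hf : C.hol f p) (hz : C.hol z p) (hc : Co C z p) :
    ∃ g, C.hol g p ∧ ∀ᶠ q in 𝓝 p, C.hol f q ∧ C.hol z q ∧ Co C z q ∧ Dr C f z q (g q) := by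
  have : Nonempty C.X := ⟨p⟩
  obtain ⟨U, u, v, t, hp, h, h0⟩ := Co.sm hC hc
  obtain ⟨g₁, h1, e1⟩ := hol_dr_chart h hp h0 hf
  obtain ⟨g₂, h2, e2⟩ := hol_dr_chart h hp h0 hz
  have h3 : g₂ p ≠ 0 := by
    rw [e2.self_of_nhds]
    exact Co.deriv_ne hc h hp (absurd · h0)
  refine ⟨fun q => g₁ q / g₂ q, hol_div hC h1 h2 h3, ?_⟩
  filter_upwards [e1, e2, hol_ev hC hf, hol_ev hC hz, (hol_cont hC h2).eventually_ne h3,
    h.isOpen.mem_nhds hp, (h.cont_u hp).eventually_ne h0] with q k1 k2 k3 k4 k5 k6 k7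
  refine ⟨k3, k4, co_of_deriv h k6 k7 (fh_of_hol k4) (k2 ▸ k5), ?_⟩
  rw [div_eq_mul_inv, k1, k2]
  exact Dr.trans (dr_chart h k6 k7 (fh_of_hol k3))
    (Dr.inv (dr_chart h k6 k7 (fh_of_hol k4)) (k2 ▸ k5))

theorem hol_dd' (hC : Chd C) (hf : C.hol f p) (hz : C.hol z p) (hc : Co C z p) :
    C.hol (dd C f z) p := by
  obtain ⟨g, h1, h2⟩ := hol_dd hC hf hz hc
  refine hol_congr hC h1 ?_
  filter_upwards [h2] with q hq
  exact Dr.dd_eq hC hq.2.2.1 hq.2.2.2

theorem co_ev (hC : Chd C) (hz : C.hol z p) (hc : Co C z p) : ∀ᶠ q in 𝓝 p, Co C z q := by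
  obtain ⟨g, -, h2⟩ := hol_dd hC hz hz hc
  exact h2.mono fun q hq => hq.2.2.1

/-- The derivative along a fibre is holomorphic on the fibre. -/
theorem fh_dd (hC : Chd C) (hf : FH C f p) (hc : Co C z p) : FH C (dd C f z) p := by
  obtain ⟨f', h1, e1⟩ := hf
  obtain ⟨z', h2, e2⟩ := hc.1
  obtain ⟨g, h3, h4⟩ := hol_dd hC h1 h2 (Co.congr hc e2.symm)
  refine ⟨g, h3, ?_⟩
  filter_upwards [nf_le p h4, ev_nf e1, ev_nf e2, Co.ev hC hc] with q k1 k2 k3 k4
  exact Dr.dd_eq hC k4 (Dr.congr k1.2.2.2 k2 k3)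

/-- A holomorphic function whose modulus has a local maximum is locally constant. -/
theorem ev_const_of_max (hC : Chd C) (hf : FH C f p) (hm : ∀ᶠ q in nf C p, ‖f q‖ ≤ ‖f p‖) :
    ∀ᶠ q in nf C p, f q = f p := by
  have : Nonempty C.X := ⟨p⟩
  have key : ∀ {U : Set C.X} {u v : C.X → ℂ} {t : (Fin m → ℂ) → ℂ}, Mod C U u v t → p ∈ U →
      (u p = 0 → v p = 0) → ∀ᶠ q in nf C p, (u q = 0 → v q = 0) → f q = f p := by
    intro U u v t h hp h0
    have h1 : ∀ᶠ x in 𝓝 (u p), f (Pc C U u v t (C.π p) x) = f (Pc C U u v t (C.π p) (u p)) := by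
      refine Complex.eventually_eq_of_isLocalMax_norm
        ((an_br h hp h0 hf).eventually_analyticAt.mono fun x hx => hx.differentiableAt) ?_
      filter_upwards [(tendsto_br h hp h0).eventually hm] with x hx
      simpa only [Function.comp_apply, Pc_self h hp h0] using hx
    rw [Pc_self h hp h0] at h1
    filter_upwards [(tendsto_u h hp).eventually h1, nf_le p (h.isOpen.mem_nhds hp), ev_fib p]
      with q k1 k2 k3 k4
    rw [← k3, Pc_self h k2 k4] at k1
    exact k1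
  by_cases hs : Sm C p
  · obtain ⟨U, u, v, t, hp, h, h0⟩ := hs
    filter_upwards [key h hp (absurd · h0), nf_le p ((h.cont_u hp).eventually_ne h0)] with q k1 k2
    exact k1 (absurd · k2)
  · obtain ⟨U, u, v, t, hp, h⟩ := hC p
    obtain ⟨h1, h2⟩ := node_of_not_sm hs h hp
    filter_upwards [key h hp fun _ => h2, key h.swap hp fun _ => h1] with q k1 k2
    by_cases h3 : v q = 0
    · exact k1 fun _ => h3
    · exact k2 (absurd · h3)

/-- **Maximum principle**: holomorphic functions on a compact connected fibre are constant. -/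
theorem const_of_fh' (hC : Chd C) {b : Fin m → ℂ} (hK : IsCompact (C.fib b))
    (hc : IsPreconnected (C.fib b)) (hf : ∀ p ∈ C.fib b, FH C f p) :
    ∀ p ∈ C.fib b, ∀ q ∈ C.fib b, f p = f q := by
  have hn : ∀ p ∈ C.fib b, nf C p = 𝓝[C.fib b] p := fun p hp => by
    unfold nf
    rw [show C.π p = b from hp]
  have hco : ContinuousOn f (C.fib b) := fun p hp => by
    have := FH.tendsto hC (hf p hp)
    rwa [hn p hp] at this
  intro p hp
  obtain ⟨p₀, hp₀, hmax⟩ := hK.exists_isMaxOn ⟨p, hp⟩ hco.norm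
  have key : ∀ q ∈ C.fib b, f q = f p₀ := by
    have : PreconnectedSpace (C.fib b) := Subtype.preconnectedSpace hc
    have hcl : IsClopen {q : C.fib b | f q = f p₀} := by
      refine ⟨isClosed_eq (continuousOn_iff_continuous_restrict.1 hco) continuous_const, ?_⟩
      rw [isOpen_iff_mem_nhds]
      intro q hq
      have hq' : f q = f p₀ := hq
      have h1 := ev_const_of_max hC (hf q q.2) (by
        rw [hn q q.2, hq']
        filter_upwards [self_mem_nhdsWithin] with r hr using hmax hr)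
      rw [hn q q.2, hq', nhdsWithin_eq_map_subtype_coe q.2] at h1
      exact h1
    intro q hq
    have h2 := hcl.eq_univ ⟨⟨p₀, hp₀⟩, rfl⟩
    exact (h2.symm ▸ mem_univ (⟨q, hq⟩ : C.fib b) : (⟨q, hq⟩ : C.fib b) ∈ {q : C.fib b | f q = f p₀})
  intro q hq
  rw [key p hp, key q hq]

theorem const_of_fh (hC : C.IsStable) {b : Fin m → ℂ} (hb : b ∈ C.B)
    (hf : ∀ p ∈ C.fib b, FH C f p) : ∀ p ∈ C.fib b, ∀ q ∈ C.fib b, f p = f q :=
  const_of_fh' (chd hC) (P273SD.isCompact_fib hC hb) (hC.2.2.2.2.2 b hb).1.isPreconnected hf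

end Vale.Agent.P269CK

end
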