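import Vale.Agent.P269C.Defs
import Vale.Agent.P273SD.Fh

/-! Fibre kit: derivatives along the fibre, coordinates, the maximum principle. -/

set_option linter.unusedSectionVars false
set_option linter.unusedVariables false

noncomputable section

namespace Vale.Agent.P269CK

open Set Filter Asymptotics Topology Vale.Agent.P273.H183 Vale.Agent.P273.H948
open Vale.Agent.P269C
open Vale.Agent.P273SD (Mod Pc Sm HolF exists_mod Pc_self holF_br ev_br ev_holF_br ev_back
  fh_smooth fh_node an_Pc ev_Pc tendsto_Pc node_of_not_sm hol_comp_u sm_of_mod)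

variable {L : Type} {m : ℕ} {C : Fam L m} {p : C.X} {f g z w : C.X → ℂ} {a b c : ℂ}

/-- Every point of the total space is in a chart. -/
def Chd (C : Fam L m) : Prop := ∀ p, ∃ U u v t, p ∈ U ∧ Mod C U u v t

theorem chd (hC : C.IsStable) : Chd C := exists_mod hC

theorem mem_fib (p : C.X) : p ∈ C.fib (C.π p) := rfl

theorem nf_le (p : C.X) : nf C p ≤ 𝓝 p := nhdsWithin_le_nhds

theorem ev_fib (p : C.X) : ∀ᶠ q in nf C p, C.π q = C.π p := self_mem_nhdsWithin

theorem pure_le_nf (p : C.X) : pure p ≤ nf C p := pure_le_nhdsWithin (mem_fib p)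

theorem self_nf {P : C.X → Prop} (h : ∀ᶠ q in nf C p, P q) : P p := pure_le_nf p h

theorem ev_nf {P : C.X → Prop} (h : ∀ᶠ q in nf C p, P q) :
    ∀ᶠ q in nf C p, ∀ᶠ r in nf C q, P r := by
  filter_upwards [eventually_eventually_nhdsWithin.2 h, ev_fib p] with q h1 h2
  unfold nf
  rwa [h2]

theorem fh_iff : FH C f p ↔ P273SD.FH C (C.π p) f p := Iff.rfl

theorem fh_of_hol (h : C.hol f p) : FH C f p := ⟨f, h, EventuallyEq.rfl⟩

theorem FH.congr (h : FH C f p) (e : g =ᶠ[nf C p] f) : FH C g p := by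
  obtain ⟨k, h1, h2⟩ := h
  exact ⟨k, h1, e.trans h2⟩

theorem Co.congr (h : Co C z p) (e : w =ᶠ[nf C p] z) : Co C w p := by
  obtain ⟨h1, U, hU, h2⟩ := h
  refine ⟨FH.congr h1 e, U ∩ {q | w q = z q}, inter_mem hU e, fun q hq r hr h3 => ?_⟩
  exact h2 hq.1 hr.1 (by rw [← hq.2, ← hr.2, h3])

/-! ### Formal properties of `Dr` -/

theorem Dr.congr {f' z' : C.X → ℂ} (h : Dr C f z p c) (e : f' =ᶠ[nf C p] f)
    (e' : z' =ᶠ[nf C p] z) : Dr C f' z' p c := by
  have h1 : f' p = f p := self_nf e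
  have h2 : z' p = z p := self_nf e'
  refine IsLittleO.congr' h ?_ ?_
  · filter_upwards [e, e'] with q h3 h4
    rw [h1, h2, h3, h4]
  · filter_upwards [e'] with q h4
    rw [h2, h4]

theorem Dr.refl (z : C.X → ℂ) (p : C.X) : Dr C z z p 1 := by
  unfold Dr
  simp

theorem Dr.const (k : ℂ) (z : C.X → ℂ) (p : C.X) : Dr C (fun _ => k) z p 0 := by
  unfold Dr
  simp

theorem Dr.isBigO (h : Dr C f z p c) :
    (fun q => f q - f p) =O[nf C p] fun q => z q - z p := by
  have h1 : (fun q => c * (z q - z p)) =O[nf C p] fun q => z q - z p :=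
    isBigO_const_mul_self _ _ _
  refine ((IsLittleO.isBigO h).add h1).congr_left fun q => ?_
  ring

/-- The chain rule. -/
theorem Dr.trans (h : Dr C f w p a) (h' : Dr C w z p b) : Dr C f z p (a * b) := by
  have h1 := IsLittleO.trans_isBigO h (Dr.isBigO h')
  have h2 := IsLittleO.const_mul_left h' a
  refine (h1.add h2).congr_left fun q => ?_
  ring

theorem Dr.add (h : Dr C f z p a) (h' : Dr C g z p b) :
    Dr C (fun q => f q + g q) z p (a + b) := by
  refine (IsLittleO.add h h').congr_left fun q => ?_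
  ring

theorem Dr.const_mul (h : Dr C f z p a) (k : ℂ) : Dr C (fun q => k * f q) z p (k * a) := by
  refine (IsLittleO.const_mul_left h k).congr_left fun q => ?_
  ring

theorem Dr.mul (h : Dr C f z p a) (h' : Dr C g z p b) (hf : Tendsto f (nf C p) (𝓝 (f p))) :
    Dr C (fun q => f q * g q) z p (a * g p + f p * b) := by
  have h1 : (fun q => f q - f p) =o[nf C p] fun _ => (1 : ℂ) :=
    (isLittleO_one_iff ℂ).2 (tendsto_sub_nhds_zero_iff.2 hf)
  have h2 := h1.mul_isBigO (Dr.isBigO h')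
  simp only [one_mul] at h2
  refine (((IsLittleO.const_mul_left h (g p)).add (IsLittleO.const_mul_left h' (f p))).add
    h2).congr_left fun q => ?_
  ring

/-- The derivative of a function of `f` with respect to `f`. -/
theorem dr_comp {F : ℂ → ℂ} (hF : HasDerivAt F c (f p)) (hf : Tendsto f (nf C p) (𝓝 (f p))) :
    Dr C (fun q => F (f q)) f p c := by
  refine ((hasDerivAt_iff_isLittleO.1 hF).comp_tendsto hf).congr_left fun q => ?_
  simp only [Function.comp_apply, smul_eq_mul]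
  ring

theorem Dr.comp {F : ℂ → ℂ} (h : Dr C f z p a) (hF : HasDerivAt F c (f p))
    (hf : Tendsto f (nf C p) (𝓝 (f p))) : Dr C (fun q => F (f q)) z p (c * a) :=
  Dr.trans (dr_comp hF hf) h

theorem Dr.unique' (h : Dr C f z p a) (h' : Dr C f z p b) (hz : ∃ᶠ q in nf C p, z q ≠ z p) :
    a = b := by
  by_contra hne
  have h1 : (fun q => (b - a) * (z q - z p)) =o[nf C p] fun q => z q - z p := by
    refine (IsLittleO.sub h h').congr_left fun q => ?_
    ring
  have h2 : 0 < ‖b - a‖ := norm_pos_iff.2 (sub_ne_zero.2 (Ne.symm hne))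
  obtain ⟨q, h3, h4⟩ := (hz.and_eventually (h1.bound (half_pos h2))).exists
  rw [norm_mul] at h4
  have h5 : 0 < ‖z q - z p‖ := norm_pos_iff.2 (sub_ne_zero.2 h3)
  nlinarith

/-- If `f = c z + o` with `c ≠ 0`, then `z = f / c + o`. -/
theorem Dr.inv (h : Dr C f z p c) (hc : c ≠ 0) : Dr C z f p c⁻¹ := by
  have h1 : (fun q => z q - z p) =O[nf C p] fun q => f q - f p := by
    have h2 : (fun q => f q - f p - c * (z q - z p)) =o[nf C p] fun q => c * (z q - z p) :=
      IsLittleO.trans_isBigO h (isBigO_self_const_mul hc _ _)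
    have h3 := h2.right_isBigO_add
    refine (isBigO_self_const_mul hc _ _).trans (h3.congr_right fun q => ?_)
    ring
  refine (IsLittleO.const_mul_left (IsLittleO.trans_isBigO h h1) (-c⁻¹)).congr_left fun q => ?_
  field_simp
  ring

/-! ### Charts -/

section Chart

variable [Nonempty C.X] {U : Set C.X} {u v : C.X → ℂ} {t : (Fin m → ℂ) → ℂ}

theorem tendsto_br (h : Mod C U u v t) (hp : p ∈ U) (h0 : u p = 0 → v p = 0) :
    Tendsto (Pc C U u v t (C.π p)) (𝓝 (u p)) (nf C p) := by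
  have h1 := (holF_br h hp h0).tendsto
  rwa [Pc_self h hp h0] at h1

theorem an_br (h : Mod C U u v t) (hp : p ∈ U) (h0 : u p = 0 → v p = 0) (hf : FH C f p) :
    AnalyticAt ℂ (fun x => f (Pc C U u v t (C.π p) x)) (u p) :=
  (holF_br h hp h0).fh (by rw [Pc_self h hp h0]; exact hf)

theorem back_nf (h : Mod C U u v t) (hp : p ∈ U) (h0 : u p ≠ 0) :
    ∀ᶠ q in nf C p, Pc C U u v t (C.π p) (u q) = q := by
  filter_upwards [nf_le p (ev_back h hp h0), ev_fib p] with q h1 h2
  rwa [h2] at h1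

theorem tendsto_u (h : Mod C U u v t) (hp : p ∈ U) : Tendsto u (nf C p) (𝓝 (u p)) :=
  (h.cont_u hp).tendsto.mono_left (nf_le p)

theorem dr_chart (h : Mod C U u v t) (hp : p ∈ U) (h0 : u p ≠ 0) (hf : FH C f p) :
    Dr C f u p (deriv (fun x => f (Pc C U u v t (C.π p) x)) (u p)) := by
  refine Dr.congr (dr_comp (an_br h hp (absurd · h0) hf).differentiableAt.hasDerivAt
    (tendsto_u h hp)) ?_ EventuallyEq.rfl
  filter_upwards [back_nf h hp h0] with q hq
  rw [hq]

theorem co_chart (h : Mod C U u v t) (hp : p ∈ U) (h0 : u p ≠ 0) : Co C u p :=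
  ⟨fh_of_hol (h.hol_u hp), _, back_nf h hp h0, fun q hq r hr e => by
    rw [← show Pc C U u v t (C.π p) (u q) = q from hq, e]; exact hr⟩

/-- A coordinate is injective on every branch. -/
theorem Co.inj_br (hz : Co C z p) (h : Mod C U u v t) (hp : p ∈ U) (h0 : u p = 0 → v p = 0) :
    ∃ O ∈ 𝓝 (u p), InjOn (fun x => z (Pc C U u v t (C.π p) x)) O := by
  obtain ⟨-, S, hS, h2⟩ := hz
  refine ⟨_, inter_mem (tendsto_br h hp h0 hS) (ev_br h hp h0), fun x hx y hy e => ?_⟩
  have h3 := h2 hx.1 hy.1 e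
  rw [← hx.2.2.2.1, h3, hy.2.2.2.1]

theorem Co.deriv_ne (hz : Co C z p) (h : Mod C U u v t) (hp : p ∈ U) (h0 : u p = 0 → v p = 0) :
    deriv (fun x => z (Pc C U u v t (C.π p) x)) (u p) ≠ 0 := by
  obtain ⟨O, hO, h2⟩ := Co.inj_br hz h hp h0
  obtain ⟨O', h3, h4, h5⟩ := eventually_nhds_iff.1
    ((an_br h hp h0 hz.1).eventually_analyticAt.and hO)
  exact P247.H558.VF.injOn_deriv_ne_zero h4
    (fun x hx => (h3 x hx).1.differentiableAt.differentiableWithinAt)
    (h2.mono fun x hx => (h3 x hx).2) h5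

theorem co_of_deriv (h : Mod C U u v t) (hp : p ∈ U) (h0 : u p ≠ 0) (hz : FH C z p)
    (hd : deriv (fun x => z (Pc C U u v t (C.π p) x)) (u p) ≠ 0) : Co C z p := by
  have hs := (an_br h hp (absurd · h0) hz).hasStrictDerivAt
  have hl := (hs.hasStrictFDerivAt_equiv hd).eventually_left_inverse
  refine ⟨hz, _, inter_mem (back_nf h hp h0) ((tendsto_u h hp).eventually hl),
    fun q hq r hr e => ?_⟩
  have h1 := hq.2
  have h2 := hr.2
  simp only [mem_ofPred_eq] at h1 h2
  rw [show Pc C U u v t (C.π p) (u q) = q from hq.1] at h1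
  rw [show Pc C U u v t (C.π p) (u r) = r from hr.1, ← e, h1] at h2
  rw [← show Pc C U u v t (C.π p) (u q) = q from hq.1, h2]
  exact hr.1

/-- There is no coordinate at a node. -/
theorem Co.not_node (hz : Co C z p) (h : Mod C U u v t) (hp : p ∈ U) (hu : u p = 0)
    (hv : v p = 0) : False := by
  have h1 : u p = 0 → v p = 0 := fun _ => hv
  have h2 : v p = 0 → u p = 0 := fun _ => hu
  have s1 := (an_br h hp h1 hz.1).hasStrictDerivAt.map_nhds_eq (Co.deriv_ne hz h hp h1)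
  have s2 := (an_br h.swap hp h2 hz.1).hasStrictDerivAt.map_nhds_eq (Co.deriv_ne hz h.swap hp h2)
  rw [Pc_self h hp h1] at s1
  rw [Pc_self h.swap hp h2] at s2
  have ht : t (C.π p) = 0 := by rw [← h.eqn p hp, hu, zero_mul]
  obtain ⟨-, S, hS, hi⟩ := hz
  have e1 := image_mem_map (m := fun x => z (Pc C U u v t (C.π p) x))
    (inter_mem (tendsto_br h hp h1 hS) (ev_br h hp h1))
  have e2 := image_mem_map (m := fun x => z (Pc C U v u t (C.π p) x))
    (inter_mem (tendsto_br h.swap hp h2 hS) (ev_br h.swap hp h2))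
  rw [s1] at e1
  rw [s2] at e2
  obtain ⟨y, ⟨⟨x₁, k1, k2⟩, x₂, k3, k4⟩, hy⟩ := (((show ∀ᶠ y in 𝓝 (z p), _ from
    inter_mem e1 e2).filter_mono nhdsWithin_le_nhds).and
      (self_mem_nhdsWithin (s := {z p}ᶜ))).exists
  have k5 := hi k1.1 k3.1 (k2.trans k4.symm)
  have k6 : x₁ = u p := by
    rw [← k1.2.2.2.1, k5, k3.2.2.2.2, ht, zero_div, hu]
  apply hy
  rw [mem_singleton_iff, ← k2, k6]
  simp only [Pc_self h hp h1]

end Chart

theorem Co.chart (hz : Co C z p) {U : Set C.X} {u v : C.X → ℂ} {t : (Fin m → ℂ) → ℂ}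
    (h : Mod C U u v t) (hp : p ∈ U) : u p ≠ 0 ∨ v p ≠ 0 := by
  have : Nonempty C.X := ⟨p⟩
  by_contra h0
  push Not at h0
  exact Co.not_node hz h hp h0.1 h0.2

theorem Co.sm (hC : Chd C) (hz : Co C z p) : Sm C p := by
  obtain ⟨U, u, v, t, hp, h⟩ := hC p
  exact sm_of_mod h hp (Co.chart hz h hp)

theorem exists_co (hs : Sm C p) : ∃ z, C.hol z p ∧ Co C z p := by
  have : Nonempty C.X := ⟨p⟩
  obtain ⟨U, u, v, t, hp, h, h0⟩ := hs
  exact ⟨u, h.hol_u hp, co_chart h hp h0⟩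

theorem Co.freq (hC : Chd C) (hz : Co C z p) : ∃ᶠ q in nf C p, z q ≠ z p := by
  have : Nonempty C.X := ⟨p⟩
  obtain ⟨U, u, v, t, hp, h, h0⟩ := Co.sm hC hz
  intro h1
  have h2 : (fun x => z (Pc C U u v t (C.π p) x)) =ᶠ[𝓝 (u p)] fun _ => z p := by
    filter_upwards [(tendsto_br h hp (absurd · h0)).eventually h1] with x hx
    exact not_not.1 hx
  exact Co.deriv_ne hz h hp (absurd · h0) (by rw [h2.deriv_eq, deriv_const])

theorem Dr.unique (hC : Chd C) (hz : Co C z p) (h : Dr C f z p a) (h' : Dr C f z p b) : a = b :=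
  Dr.unique' h h' (Co.freq hC hz)

theorem exists_dr (hC : Chd C) (hf : FH C f p) (hz : Co C z p) : ∃ c, Dr C f z p c := by
  have : Nonempty C.X := ⟨p⟩
  obtain ⟨U, u, v, t, hp, h, h0⟩ := Co.sm hC hz
  exact ⟨_, Dr.trans (dr_chart h hp h0 hf)
    (Dr.inv (dr_chart h hp h0 hz.1) (Co.deriv_ne hz h hp (absurd · h0)))⟩

theorem Dr.ne (hC : Chd C) (hw : Co C w p) (hz : Co C z p) (h : Dr C w z p c) : c ≠ 0 := by
  obtain ⟨b, hb⟩ := exists_dr hC hz.1 hw
  have h1 := Dr.unique hC hz (Dr.trans hb h) (Dr.refl z p)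
  rintro rfl
  simp at h1

theorem co_of_dr (hC : Chd C) (hz : Co C z p) (hw : FH C w p) (h : Dr C w z p c) (hc : c ≠ 0) :
    Co C w p := by
  have : Nonempty C.X := ⟨p⟩
  obtain ⟨U, u, v, t, hp, hm, h0⟩ := Co.sm hC hz
  refine co_of_deriv hm hp h0 hw ?_
  rw [Dr.unique hC (co_chart hm hp h0) (dr_chart hm hp h0 hw)
    (Dr.trans h (dr_chart hm hp h0 hz.1))]
  exact mul_ne_zero hc (Co.deriv_ne hz hm hp (absurd · h0))

/-- The derivative `df / dz` at `p` along the fibre. -/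
def dd (C : Fam L m) (f z : C.X → ℂ) (p : C.X) : ℂ := Classical.epsilon (Dr C f z p)

theorem dr_dd (hC : Chd C) (hf : FH C f p) (hz : Co C z p) : Dr C f z p (dd C f z p) :=
  Classical.epsilon_spec (exists_dr hC hf hz)

theorem Dr.dd_eq (hC : Chd C) (hz : Co C z p) (h : Dr C f z p c) : dd C f z p = c :=
  Dr.unique hC hz (Classical.epsilon_spec ⟨c, h⟩) h

end Vale.Agent.P269CK

end
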