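import Vale.Agent.P269CK.Iso

/-! Fibre kit: sections of the dualizing sheaf; a nowhere vanishing section is a basis. -/

set_option linter.unusedSectionVars false
set_option linter.unusedVariables false

noncomputable section

namespace Vale.Agent.P269CK

open Set Filter Asymptotics Topology Vale.Agent.P273.H183 Vale.Agent.P273.H948
open Vale.Agent.P269C
open Vale.Agent.P273SD (Mod Pc Pc_self ev_br fh_node)

variable {L : Type} {m : ℕ} {C : Fam L m} {p : C.X} {η θ : Df C} {b : Fin m → ℂ}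
  {U : Set C.X} {x y f : C.X → ℂ} {t : (Fin m → ℂ) → ℂ}

/-- The transformation law at `p`. -/
def Tl (C : Fam L m) (η : Df C) (p : C.X) : Prop :=
  ∀ z w c, Co C z p → Co C w p → Dr C w z p c → η z p = c * η w p

/-- `η = f dx / x = - f dy / y` near `p`. -/
def Rs (C : Fam L m) (η : Df C) (x y f : C.X → ℂ) (p : C.X) : Prop :=
  ∀ᶠ q in nf C p, (x q ≠ 0 → η x q * x q = f q) ∧ (y q ≠ 0 → η y q * y q = -f q)

theorem om_iff : Om C b η ↔ ∀ p ∈ C.fib b, Tl C η p ∧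
    ∀ U x y t, IsChart C.π C.hol U x y t → p ∈ U → ∃ f, FH C f p ∧ Rs C η x y f p := Iff.rfl

theorem Rs.swap (h : Rs C η x y f p) : Rs C η y x (fun q => -f q) p :=
  Eventually.mono h fun q hq => ⟨hq.2, fun h0 => by rw [neg_neg]; exact hq.1 h0⟩

theorem dr_yx (hC : Chd C) (h : Mod C U x y t) (hp : p ∈ U) (h0 : x p ≠ 0) :
    Dr C y x p (-(y p / x p)) := by
  have : Nonempty C.X := ⟨p⟩
  have h1 : HasDerivAt (fun s : ℂ => t (C.π p) * s⁻¹) (t (C.π p) * -(x p ^ 2)⁻¹) (x p) :=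
    (hasDerivAt_inv h0).const_mul _
  have h2 := dr_comp h1 (tendsto_u h hp)
  have h3 : t (C.π p) * -(x p ^ 2)⁻¹ = -(y p / x p) := by
    rw [← h.eqn p hp]; field_simp
  rw [h3] at h2
  refine Dr.congr h2 ?_ EventuallyEq.rfl
  filter_upwards [ev_fib p, nf_le p (h.isOpen.mem_nhds hp),
    nf_le p ((h.cont_u hp).eventually_ne h0)] with q k1 k2 k3
  rw [← k1, ← h.eqn q k2]; field_simp

/-- The residue clause at a point where `x` is a coordinate. -/
theorem rs_smooth (hC : Chd C) (h : Mod C U x y t) (hp : p ∈ U) (h0 : x p ≠ 0)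
    (hT : ∀ᶠ q in nf C p, Tl C η q) : Rs C η x y (fun q => η x q * x q) p := by
  have : Nonempty C.X := ⟨p⟩
  filter_upwards [hT, nf_le p (h.isOpen.mem_nhds hp), nf_le p ((h.cont_u hp).eventually_ne h0)]
    with q k1 k2 k3
  refine ⟨fun _ => rfl, fun k4 => ?_⟩
  rw [k1 x y _ (co_chart h k2 k3) (co_chart h.swap k2 k4) (dr_yx hC h k2 k3)]
  field_simp

/-- A criterion: the transformation law, holomorphy at smooth points, residues at nodes. -/
theorem om_of (hC : Chd C) (h1 : ∀ p ∈ C.fib b, Tl C η p)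
    (h2 : ∀ p ∈ C.fib b, ∀ z, Co C z p → FH C (η z) p)
    (h3 : ∀ p ∈ C.fib b, ∀ U x y t, Mod C U x y t → p ∈ U → x p = 0 → y p = 0 →
      ∃ f, FH C f p ∧ Rs C η x y f p) : Om C b η := by
  refine om_iff.2 fun p hp => ⟨h1 p hp, fun U x y t hc hU => ?_⟩
  have : Nonempty C.X := ⟨p⟩
  have h : Mod C U x y t := IsChart.isModel (hol := fun x g => C.hol g x) hc
  have hT : ∀ᶠ q in nf C p, Tl C η q := (ev_mem hp).mono h1
  by_cases hx : x p = 0
  · by_cases hy : y p = 0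
    · exact h3 p hp U x y t h hU hx hy
    · refine ⟨_, ?_, Rs.swap (rs_smooth hC h.swap hU hy hT)⟩
      have h4 := FH.mul hC (h2 p hp y (co_chart h.swap hU hy)) (fh_of_hol (h.hol_v hU))
      exact FH.comp hC h4 (F := fun s => -s) analyticAt_id.neg
  · exact ⟨_, FH.mul hC (h2 p hp x (co_chart h hU hx)) (fh_of_hol (h.hol_u hU)),
      rs_smooth hC h hU hx hT⟩

theorem ratio_eq (hC : Chd C) (h1 : Tl C η p) (h2 : Tl C θ p) {z w : C.X → ℂ} (hz : Co C z p)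
    (hw : Co C w p) : η z p / θ z p = η w p / θ w p := by
  obtain ⟨c, hc⟩ := exists_dr hC hw.1 hz
  rw [h1 z w c hz hw hc, h2 z w c hz hw hc, mul_div_mul_left _ _ (Dr.ne hC hw hz hc)]

theorem ratio_rs (hC : Chd C) (h1 : Tl C η p) (h2 : Tl C θ p) (h : Mod C U x y t) (hp : p ∈ U)
    {g k : ℂ} (hg : (x p ≠ 0 → η x p * x p = g) ∧ (y p ≠ 0 → η y p * y p = -g))
    (hk : (x p ≠ 0 → θ x p * x p = k) ∧ (y p ≠ 0 → θ y p * y p = -k)) {z : C.X → ℂ}
    (hz : Co C z p) : g / k = η z p / θ z p := by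
  have : Nonempty C.X := ⟨p⟩
  rcases Co.chart hz h hp with h0 | h0
  · rw [← hg.1 h0, ← hk.1 h0, mul_div_mul_right _ _ h0]
    exact ratio_eq hC h1 h2 (co_chart h hp h0) hz
  · rw [← neg_div_neg_eq, ← hg.2 h0, ← hk.2 h0, mul_div_mul_right _ _ h0]
    exact ratio_eq hC h1 h2 (co_chart h.swap hp h0) hz

theorem ev_co_or (h : Mod C U x y t) (hp : p ∈ U) :
    ∀ᶠ q in nf C p, q = p ∨ ∃ z, Co C z q := by
  have : Nonempty C.X := ⟨p⟩
  have key : ∀ q ∈ U, x q ≠ 0 ∨ y q ≠ 0 → ∃ z, Co C z q := by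
    rintro q hq (h0 | h0)
    · exact ⟨x, co_chart h hq h0⟩
    · exact ⟨y, co_chart h.swap hq h0⟩
  by_cases hx : x p = 0
  · by_cases hy : y p = 0
    · filter_upwards [nf_le p (h.isOpen.mem_nhds hp), ev_fib p] with q k1 k2
      by_cases h0 : x q ≠ 0 ∨ y q ≠ 0
      · exact Or.inr (key q k1 h0)
      · push Not at h0
        exact Or.inl (h.inj k1 hp (by simp only [Emap, k2, h0.1, h0.2, hx, hy]))
    · filter_upwards [nf_le p (h.isOpen.mem_nhds hp), nf_le p ((h.cont_v hp).eventually_ne hy)]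
        with q k1 k2 using Or.inr (key q k1 (Or.inr k2))
  · filter_upwards [nf_le p (h.isOpen.mem_nhds hp), nf_le p ((h.cont_u hp).eventually_ne hx)]
      with q k1 k2 using Or.inr (key q k1 (Or.inl k2))

/-- **A nowhere vanishing section of the dualizing sheaf is a basis.** -/
theorem bas_of_nv (hC : Chd C) (hK : IsCompact (C.fib b)) (hc : IsPreconnected (C.fib b))
    (hθ : Om C b θ) (h1 : ∀ p ∈ C.fib b, ∀ z, Co C z p → θ z p ≠ 0)
    (h2 : ∀ p ∈ C.fib b, ∀ U x y t, Mod C U x y t → p ∈ U → x p = 0 → y p = 0 →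
      ∃ f, FH C f p ∧ f p ≠ 0 ∧ Rs C θ x y f p)
    (h3 : ∃ p ∈ C.fib b, ∃ z, Co C z p) : Bas C b fun _ : Fin 1 => θ := by
  refine ⟨fun _ => hθ, fun η hη => ?_⟩
  have key : ∀ p : C.X, ∃ F : C.X → ℂ, p ∈ C.fib b → FH C F p ∧
      ∀ᶠ q in nf C p, ∀ z, Co C z q → F q = η z q / θ z q := by
    intro p
    by_cases hp : p ∈ C.fib b
    swap
    · exact ⟨0, fun h => absurd h hp⟩
    have : Nonempty C.X := ⟨p⟩
    obtain ⟨U, x, y, t, hU, h⟩ := hC p
    obtain ⟨g, hg, rg⟩ := (hη p hp).2 U x y t h.isChart hU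
    obtain ⟨k, hk, hk0, rk⟩ : ∃ k, FH C k p ∧ k p ≠ 0 ∧ Rs C θ x y k p := by
      by_cases h0 : x p = 0 ∧ y p = 0
      · exact h2 p hp U x y t h hU h0.1 h0.2
      · obtain ⟨k, hk, rk⟩ := (hθ p hp).2 U x y t h.isChart hU
        refine ⟨k, hk, ?_, rk⟩
        rcases not_and_or.1 h0 with h4 | h4
        · rw [← (self_nf rk).1 h4]
          exact mul_ne_zero (h1 p hp x (co_chart h hU h4)) h4
        · rw [← neg_ne_zero, ← (self_nf rk).2 h4]
          exact mul_ne_zero (h1 p hp y (co_chart h.swap hU h4)) h4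
    refine ⟨fun q => g q / k q, fun _ => ⟨FH.div hC hg hk hk0, ?_⟩⟩
    filter_upwards [rg, rk, ev_mem hp, nf_le p (h.isOpen.mem_nhds hU)] with q k1 k2 k3 k4 z hz
    exact ratio_rs hC (hη q k3).1 (hθ q k3).1 h k4 k1 k2 hz
  choose F hF using key
  have hφ : ∀ p ∈ C.fib b, FH C (fun q => F q q) p := by
    intro p hp
    obtain ⟨U, x, y, t, hU, h⟩ := hC p
    refine FH.congr (hF p hp).1 ?_
    filter_upwards [(hF p hp).2, ev_mem hp, ev_co_or h hU] with q k1 k2 k3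
    rcases k3 with rfl | ⟨z, hz⟩
    · rfl
    · rw [k1 z hz, self_nf (hF q k2).2 z hz]
  obtain ⟨p₀, hp₀, z₀, hz₀⟩ := h3
  refine ⟨fun _ => F p₀ p₀, fun p hp z hz => ?_, fun c hc' => ?_⟩
  · rw [Fin.sum_univ_one, const_of_fh' hC hK hc hφ p₀ hp₀ p hp, self_nf (hF p hp).2 z hz,
      div_mul_cancel₀ _ (h1 p hp z hz)]
  · funext j
    have h4 := hc' p₀ hp₀ z₀ hz₀
    rw [Fin.sum_univ_one] at h4
    rw [self_nf (hF p₀ hp₀).2 z₀ hz₀, h4, mul_div_cancel_right₀ _ (h1 p₀ hp₀ z₀ hz₀),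
      Subsingleton.elim j 0]

/-- The residue clause at a node from the two branches. -/
theorem rs_node [Nonempty C.X] (h : Mod C U x y t) (hp : p ∈ U) (hx : x p = 0) (hy : y p = 0)
    {F G : ℂ → ℂ} (hF : AnalyticAt ℂ F 0) (hG : AnalyticAt ℂ G 0) (h0 : G 0 = -F 0)
    (h1 : ∀ᶠ s in 𝓝 (0 : ℂ), s ≠ 0 → η x (Pc C U x y t (C.π p) s) * s = F s)
    (h2 : ∀ᶠ s in 𝓝 (0 : ℂ), s ≠ 0 → η y (Pc C U y x t (C.π p) s) * s = G s) :
    ∃ f, FH C f p ∧ f p = F 0 ∧ Rs C η x y f p := by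
  have hC : ∀ {k : ℂ → ℂ} {u v : C.X → ℂ}, Mod C U u v t → u p = 0 → AnalyticAt ℂ k 0 →
      C.hol (fun q => k (u q)) p := fun h' h3 hk => P273SD.hol_comp_u h' hp (h3 ▸ hk)
  refine ⟨fun q => F (x q) - G (y q) - F 0, fh_of_hol ((h.hol p hp _).2
    ⟨fun w => F w.2.1 - G w.2.2 - F 0, ?_, EventuallyEq.rfl⟩), ?_, ?_⟩
  · refine ((AnalyticAt.comp_of_eq (f := fun w : Amb m => w.2.1) hF (an_u _) hx).sub
      (AnalyticAt.comp_of_eq (f := fun w : Amb m => w.2.2) hG (an_v _) hy)).sub analyticAt_const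
  · simp only [hx, hy, h0]; ring
  · have e1 := tendsto_u h hp
    have e2 := tendsto_u h.swap hp
    rw [hx] at e1
    rw [hy] at e2
    filter_upwards [e1.eventually h1, e2.eventually h2, nf_le p (h.isOpen.mem_nhds hp), ev_fib p]
      with q k1 k2 k3 k4
    have k5 : x q * y q = 0 := by rw [h.eqn q k3, k4, ← h.eqn p hp, hx, zero_mul]
    refine ⟨fun k6 => ?_, fun k6 => ?_⟩
    · have k7 := k1 k6
      rw [← k4, Pc_self h k3 (absurd · k6)] at k7
      rw [k7, (mul_eq_zero.1 k5).resolve_left k6, h0]; ring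
    · have k7 := k2 k6
      rw [← k4, Pc_self h.swap k3 (absurd · k6)] at k7
      rw [k7, (mul_eq_zero.1 k5).resolve_right k6]; ring

end Vale.Agent.P269CK

end
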